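import Vale.Agent.P219.TPH.WindowH

/-! # P219, dimension two: from geodesics to the unit tangent bundle -/

open MeasureTheory Set Metric
open scoped ENNReal ContDiff

namespace Vale.Agent.P219.Two

open Vale.Agent.P219.TP Vale.Agent.P219.TPH

variable {n : ℕ} (G : Geo n)

theorem window_le {o : E n} {ρ : ℝ} {F F' : E n × E n → ℝ≥0∞}
    (h0 : ∀ x u, ¬ ‖G.lg o x‖ ≤ ρ → F (x, u) = 0)
    (h0' : ∀ x u, ¬ ‖G.lg o x‖ ≤ ρ → F' (x, u) = 0) {c : ℝ≥0∞}
    (hFc : ∀ x u, ‖u‖ = 1 → F (x, u) ≤ c)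
    (hline : ∀ x u : E n, ‖u‖ = 1 → ∫⁻ t : ℝ, F (G.ex x (t • u), G.V t x u) ≤
      ∫⁻ t : ℝ, F' (G.ex x (t • u), G.V t x u)) {T : ℝ} (hT : 0 < T) (x u : E n)
    (hu : ‖u‖ = 1) :
    tpiW G F 0 T (x, u) ≤ tpiW G F' 0 T (x, u) +
      c * ENNReal.ofReal (2 * ρ) * ({y | ‖G.lg o y‖ ≤ ρ}.indicator 1 x +
            {y | ‖G.lg o y‖ ≤ ρ}.indicator 1 (G.ex x (T • u))) := by
  have hSc := wh_isClosed_S G o ρ x u
  have hSm : MeasurableSet (wh_S G o ρ x u) := hSc.measurableSet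
  have hFS : ∀ t ∉ wh_S G o ρ x u, F (G.ex x (t • u), G.V t x u) = 0 := fun t ht => h0 _ _ ht
  have hFS' : ∀ t ∉ wh_S G o ρ x u, F' (G.ex x (t • u), G.V t x u) = 0 := fun t ht => h0' _ _ ht
  by_cases hcase : (0 : ℝ) ∉ wh_S G o ρ x u ∧ T ∉ wh_S G o ρ x u
  · by_cases hex : ∃ t₀ ∈ Ioo 0 T, t₀ ∈ wh_S G o ρ x u
    · obtain ⟨t₀, ht₀, ht₀S⟩ := hex
      have hsub : wh_S G o ρ x u ⊆ Ioo 0 T := by
        intro t ht
        constructor
        · by_contra h0
          exact hcase.1 (wh_mem_of_between G ht ht₀S (not_lt.1 h0) ht₀.1.le)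
        · by_contra h0
          exact hcase.2 (wh_mem_of_between G ht₀S ht ht₀.2.le (not_lt.1 h0))
      unfold tpiW
      rw [wh_lintegral_restrict (S := wh_S G o ρ x u) measurableSet_Ioo hsub hFS,
        wh_lintegral_restrict (S := wh_S G o ρ x u) measurableSet_Ioo hsub hFS']
      exact (hline x u hu).trans le_self_add
    · push Not at hex
      have e2 : tpiW G F 0 T (x, u) = 0 := by
        unfold tpiW
        rw [← lintegral_indicator measurableSet_Ioo]
        refine (lintegral_congr fun σ => ?_).trans lintegral_zero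
        by_cases hσ : σ ∈ Ioo 0 T
        · rw [indicator_of_mem hσ]
          exact hFS σ (hex σ hσ)
        · rw [indicator_of_notMem hσ]
      rw [e2]
      exact bot_le
  · have hind : (1 : ℝ≥0∞) ≤ {y | ‖G.lg o y‖ ≤ ρ}.indicator 1 x +
            {y | ‖G.lg o y‖ ≤ ρ}.indicator 1 (G.ex x (T • u)) := by
      by_cases h0 : (0 : ℝ) ∈ wh_S G o ρ x u
      · have h0' : x ∈ {y | ‖G.lg o y‖ ≤ ρ} := by
          have : ‖G.lg o (G.ex x ((0 : ℝ) • u))‖ ≤ ρ := h0
          rw [zero_smul, G.ex_zero] at this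
          exact this
        rw [indicator_of_mem h0']
        exact le_self_add
      · have h1 : T ∈ wh_S G o ρ x u := by
          by_contra h1
          exact hcase ⟨h0, h1⟩
        have h1' : G.ex x (T • u) ∈ {y | ‖G.lg o y‖ ≤ ρ} := h1
        rw [indicator_of_mem h1']
        exact le_add_self
    have hvol := wh_volume_S G (o := o) (ρ := ρ) (x := x) hu
    have h1 : tpiW G F 0 T (x, u) ≤ c * volume (wh_S G o ρ x u) := by
      unfold tpiW
      exact wh_lintegral_le_of_bound hSm hFS (fun t => hFc _ _ (by rw [G.norm_V, hu]))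
    calc tpiW G F 0 T (x, u) ≤ c * ENNReal.ofReal (2 * ρ) := h1.trans (by gcongr)
      _ = c * ENNReal.ofReal (2 * ρ) * 1 := (mul_one _).symm
      _ ≤ _ := by
          refine le_trans ?_ le_add_self
          gcongr

/-- An inequality between integrals along all geodesics gives the inequality between the integrals
over the unit tangent bundle. -/
theorem line_principle (hn : 1 ≤ n) {o : E n} {ρ : ℝ} {F F' : E n × E n → ℝ≥0∞}
    (hF : Measurable F) (hF' : Measurable F')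
    (h0 : ∀ x u, ¬ ‖G.lg o x‖ ≤ ρ → F (x, u) = 0)
    (h0' : ∀ x u, ¬ ‖G.lg o x‖ ≤ ρ → F' (x, u) = 0) {c : ℝ≥0∞} (hc : c ≠ ⊤)
    (hFc : ∀ x u, ‖u‖ = 1 → F (x, u) ≤ c)
    (hline : ∀ x u : E n, ‖u‖ = 1 → ∫⁻ t : ℝ, F (G.ex x (t • u), G.V t x u) ≤
      ∫⁻ t : ℝ, F' (G.ex x (t • u), G.V t x u)) :
    tpiJ G F ≤ tpiJ G F' := by
  by_cases hfin' : tpiJ G F' = ⊤
  · rw [hfin']; exact le_top
  have hA0 : MeasurableSet {y : E n | ‖G.lg o y‖ ≤ ρ} :=
    (G.isCompact_gball o ρ).isClosed.measurableSet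
  have hv0 : G.vol {y : E n | ‖G.lg o y‖ ≤ ρ} < ⊤ := G.vol_compact_lt_top (G.isCompact_gball o ρ)
  set F0 : E n → ℝ≥0∞ := {y | ‖G.lg o y‖ ≤ ρ}.indicator 1 with hF0'
  have hmF0 : Measurable F0 := measurable_one.indicator hA0
  have hJ0 : tpiJ G (fun z => F0 z.1) ≠ ⊤ := by
    rw [tpiJ_fst, hF0', lintegral_indicator_one hA0]
    exact ENNReal.mul_ne_top (measure_ne_top _ _) hv0.ne
  have hfin : tpiJ G F ≠ ⊤ := by
    have h1 : tpiJ G F ≤ c * tpiJ G (fun z => F0 z.1) := by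
      rw [← tpiJ_const_mul G (F := fun z => F0 z.1) (hmF0.comp measurable_fst)]
      refine tpiJ_mono G fun x u hu => ?_
      by_cases hx : ‖G.lg o x‖ ≤ ρ
      · have : F0 x = 1 := indicator_of_mem (show x ∈ {y | ‖G.lg o y‖ ≤ ρ} from hx) _
        simp only [this, mul_one]
        exact hFc x u hu
      · rw [h0 x u hx]
        exact bot_le
    exact ne_top_of_le_ne_top (ENNReal.mul_ne_top hc hJ0) h1
  have key : (tpiJ G F).toReal ≤ (tpiJ G F').toReal := by
    apply tpi_real_limit (c := (c * ENNReal.ofReal (2 * ρ) * (tpiJ G (fun z => F0 z.1) +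
      tpiJ G (fun z => F0 z.1))).toReal)
    intro N hN
    obtain ⟨T, ⟨hT1, hT2⟩, hT3⟩ := tpi_exists_time G hn hmF0 hN
    have hT0 : 0 < T := by linarith
    refine ⟨T, hT1, ?_⟩
    have hint := tpiJ_mono G (F := fun z => tpiW G F 0 T z)
      (F' := fun z => tpiW G F' 0 T z + c * ENNReal.ofReal (2 * ρ) *
        (F0 z.1 + F0 (G.ex z.1 (T • z.2))))
      (fun x u hu => window_le G h0 h0' hFc hline hT0 x u hu)
    have hW := tpi_measurable_W G hF 0 T
    have hW' := tpi_measurable_W G hF' 0 T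
    have hB : Measurable fun z : E n × E n => F0 z.1 + F0 (G.ex z.1 (T • z.2)) := by
      apply (hmF0.comp measurable_fst).add
      apply hmF0.comp
      exact (G.ex_smooth.continuous.comp
        (continuous_fst.prodMk (continuous_snd.const_smul T))).measurable
    rw [tpiJ_add G hW', tpiJ_const_mul G hB, tpiJ_add G (F := fun z => F0 z.1)
      (hmF0.comp measurable_fst), tpiJ_W G hn hF le_rfl hT0.le, tpiJ_W G hn hF' le_rfl hT0.le,
      sub_zero] at hint
    have h2 : ENNReal.ofReal T * tpiJ G F ≤ ENNReal.ofReal T * tpiJ G F' +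
        c * ENNReal.ofReal (2 * ρ) * (tpiJ G (fun z => F0 z.1) + tpiJ G (fun z => F0 z.1)) := by
      refine hint.trans ?_
      gcongr
    have htop : c * ENNReal.ofReal (2 * ρ) * (tpiJ G (fun z => F0 z.1) +
        tpiJ G (fun z => F0 z.1)) ≠ ⊤ :=
      ENNReal.mul_ne_top (ENNReal.mul_ne_top hc ENNReal.ofReal_ne_top)
        (ENNReal.add_ne_top.2 ⟨hJ0, hJ0⟩)
    have htop2 : ENNReal.ofReal T * tpiJ G F' ≠ ⊤ := ENNReal.mul_ne_top ENNReal.ofReal_ne_top hfin'
    have h3 := ENNReal.toReal_mono (ENNReal.add_ne_top.2 ⟨htop2, htop⟩) h2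
    rwa [ENNReal.toReal_add htop2 htop, ENNReal.toReal_mul, ENNReal.toReal_mul,
      ENNReal.toReal_ofReal hT0.le] at h3
  exact (ENNReal.toReal_le_toReal hfin hfin').1 key

end Vale.Agent.P219.Two
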