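import Mathlib

/-! # P219, dimension two: real analysis -/

open MeasureTheory Set Metric
open scoped ENNReal

namespace Vale.Agent.P219.Two

/-- Rearrangement: a nondecreasing function has the smallest integral on the interval `(0, L]`. -/
theorem rearr {w : ℝ → ℝ} (hw : MonotoneOn w (Ici 0)) {A : Set ℝ}
    (hA : MeasurableSet A) (hA0 : A ⊆ Ioi 0) {L : ℝ} (hL : 0 ≤ L)
    (hAL : volume A = ENNReal.ofReal L) :
    ∫⁻ r in Ioc 0 L, ENNReal.ofReal (w r) ≤ ∫⁻ r in A, ENNReal.ofReal (w r) := by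
  have hI : MeasurableSet (Ioc (0 : ℝ) L) := measurableSet_Ioc
  have hvI : volume (Ioc (0 : ℝ) L) = ENNReal.ofReal L := by rw [Real.volume_Ioc, sub_zero]
  -- the measures of the differences
  have hdiff : volume (Ioc 0 L \ A) = volume (A \ Ioc 0 L) := by
    have h1 := measure_inter_add_sdiff (μ := volume) (Ioc 0 L) hA
    have h2 := measure_inter_add_sdiff (μ := volume) A hI
    have h3 : volume (Ioc 0 L ∩ A) ≠ ⊤ := by
      refine ne_top_of_le_ne_top ?_ (measure_mono inter_subset_left)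
      rw [hvI]; exact ENNReal.ofReal_ne_top
    rw [inter_comm A] at h2
    rw [hvI] at h1
    rw [hAL] at h2
    have h4 : volume (Ioc 0 L ∩ A) + volume (Ioc 0 L \ A) =
        volume (Ioc 0 L ∩ A) + volume (A \ Ioc 0 L) := h1.trans h2.symm
    exact (ENNReal.add_right_inj h3).1 h4
  have e1 := lintegral_inter_add_sdiff (μ := volume) (fun r => ENNReal.ofReal (w r)) (Ioc 0 L) hA
  have e2 := lintegral_inter_add_sdiff (μ := volume) (fun r => ENNReal.ofReal (w r)) A hI
  rw [← e1, ← e2, inter_comm A]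
  refine add_le_add le_rfl ?_
  calc ∫⁻ r in Ioc 0 L \ A, ENNReal.ofReal (w r)
      ≤ ∫⁻ r in Ioc 0 L \ A, ENNReal.ofReal (w L) := by
        refine setLIntegral_mono' (hI.diff hA) fun r hr => ENNReal.ofReal_le_ofReal ?_
        exact hw hr.1.1.le hL hr.1.2
    _ = ENNReal.ofReal (w L) * volume (A \ Ioc 0 L) := by
        rw [setLIntegral_const, hdiff]
    _ = ∫⁻ r in A \ Ioc 0 L, ENNReal.ofReal (w L) := by rw [setLIntegral_const]
    _ ≤ ∫⁻ r in A \ Ioc 0 L, ENNReal.ofReal (w r) := by
        refine setLIntegral_mono' (hA.diff hI) fun r hr => ENNReal.ofReal_le_ofReal ?_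
        have hr0 : 0 < r := hA0 hr.1
        have hrL : L < r := by
          by_contra h
          exact hr.2 ⟨hr0, not_lt.1 h⟩
        exact hw hL hr0.le hrL.le

/-- The inequality on a line. `H` is the function along a geodesic, `N` the norm of the gradient,
`w a` the kernel, `W a L = ∫_0^L w a`. -/
theorem line_real {H H' N : ℝ → ℝ} (hH : ∀ t, HasDerivAt H (H' t) t) (hH'c : Continuous H')
    (hN : ∀ t, |H' t| ≤ N t) {w : ℝ → ℝ → ℝ} {f : ℝ → ℝ}
    (hw : ∀ a, 0 < a → a ≤ 1 → MonotoneOn (w a) (Ici 0))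
    (hW : ∀ a L, 0 < a → a ≤ 1 → 0 ≤ L →
      ENNReal.ofReal (L - f a) ≤ ∫⁻ r in Ioc 0 L, ENNReal.ofReal (w a r))
    {t₁ : ℝ} (ht₁ : ∀ t ≤ t₁, H t = 0) {t₂ : ℝ}
    (ht₂ : ∀ t, t₂ ≤ t → H t = 0) {Ψ Φ : ℝ → ℝ≥0∞}
    (hΨ : ∀ t, 0 < H' t → ENNReal.ofReal (H' t) * ∫⁻ r in (fun r => t + r) ⁻¹' {s | H s = 1} ∩
      Ioi 0, ENNReal.ofReal (w (H' t / N t) r) ≤ Ψ t)
    (hΦ : ∀ t, 0 < H' t → ENNReal.ofReal (H' t * f (H' t / N t)) ≤ Φ t) :
    volume {t | H t = 1} ≤ (∫⁻ t, Ψ t + Φ t) := by
  have hHc : Continuous H := continuous_iff_continuousAt.2 fun t => (hH t).continuousAt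
  set S : Set ℝ := {t | H t = 1} with hS
  have hSc : IsClosed S := isClosed_eq hHc continuous_const
  have hSsub : S ⊆ Icc t₁ t₂ := by
    intro t ht
    have ht1 : H t = 1 := ht
    constructor
    · by_contra h
      rw [ht₁ t (not_le.1 h).le] at ht1
      exact zero_ne_one ht1
    · by_contra h
      rw [ht₂ t (not_le.1 h).le] at ht1
      exact zero_ne_one ht1
  by_cases hne : S.Nonempty
  swap
  · rw [not_nonempty_iff_eq_empty.1 hne, measure_empty]
    exact bot_le
  have hSm : MeasurableSet S := hSc.measurableSet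
  have hfin : volume S ≠ ⊤ := by
    refine ne_top_of_le_ne_top ?_ (measure_mono hSsub)
    rw [Real.volume_Icc]
    exact ENNReal.ofReal_ne_top
  obtain ⟨L, hL⟩ : ∃ L, L = volume.real S := ⟨_, rfl⟩
  have hL0 : 0 ≤ L := hL ▸ measureReal_nonneg
  have hSL : volume S = ENNReal.ofReal L := by rw [hL, ofReal_measureReal hfin]
  have hbdd : BddBelow S := ⟨t₁, fun t ht => (hSsub ht).1⟩
  set t₀ := sInf S with ht₀
  have ht₀S : t₀ ∈ S := hSc.csInf_mem hne hbdd
  have hlow : ∀ s ∈ S, t₀ ≤ s := fun s hs => csInf_le hbdd hs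
  have ht10 : t₁ ≤ t₀ := (hSsub ht₀S).1
  have hH0 : H t₀ = 1 := ht₀S
  -- pointwise bound
  have hpt : ∀ t, t < t₀ → ENNReal.ofReal (H' t * L) ≤ Ψ t + Φ t := by
    intro t ht
    by_cases hp : 0 < H' t
    swap
    · rw [ENNReal.ofReal_of_nonpos]
      · exact bot_le
      · exact mul_nonpos_of_nonpos_of_nonneg (not_lt.1 hp) hL0
    have hNpos : 0 < N t := hp.trans_le ((le_abs_self _).trans (hN t))
    set a := H' t / N t with ha
    have ha0 : 0 < a := div_pos hp hNpos
    have ha1 : a ≤ 1 := (div_le_one hNpos).2 ((le_abs_self _).trans (hN t))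
    set A : Set ℝ := (fun r => t + r) ⁻¹' S ∩ Ioi 0 with hA
    have hAm : MeasurableSet A :=
      (hSm.preimage (measurable_const.add measurable_id)).inter measurableSet_Ioi
    have hAeq : A = (fun r => t + r) ⁻¹' S := by
      refine inter_eq_left.2 fun r hr => ?_
      have := hlow (t + r) hr
      show 0 < r
      linarith
    have hAL : volume A = ENNReal.ofReal L := by
      rw [hAeq, ← hSL]
      exact measure_preimage_add volume t S
    have h1 := rearr (hw a ha0 ha1) hAm inter_subset_right hL0 hAL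
    have h2 := (hW a L ha0 ha1 hL0).trans h1
    calc ENNReal.ofReal (H' t * L)
        = ENNReal.ofReal (H' t * (L - f a) + H' t * f a) := by congr 1; ring
      _ ≤ ENNReal.ofReal (H' t * (L - f a)) + ENNReal.ofReal (H' t * f a) :=
          ENNReal.ofReal_add_le
      _ = ENNReal.ofReal (H' t) * ENNReal.ofReal (L - f a) + ENNReal.ofReal (H' t * f a) := by
          rw [ENNReal.ofReal_mul hp.le]
      _ ≤ Ψ t + Φ t := by
          refine add_le_add (le_trans ?_ (hΨ t hp)) (hΦ t hp)
          exact mul_le_mul_right h2 _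
  -- integrate
  have hftc : ∫ t in t₁..t₀, H' t * L = L := by
    rw [intervalIntegral.integral_mul_const,
      intervalIntegral.integral_eq_sub_of_hasDerivAt (fun t _ => hH t)
        (hH'c.intervalIntegrable _ _), hH0, ht₁ t₁ le_rfl]
    ring
  calc volume S = ENNReal.ofReal (∫ t in t₁..t₀, H' t * L) := by rw [hSL, hftc]
    _ = ENNReal.ofReal (∫ t in Ioo t₁ t₀, H' t * L) := by
        rw [intervalIntegral.integral_of_le ht10, integral_Ioc_eq_integral_Ioo]
    _ ≤ ENNReal.ofReal (∫ t in Ioo t₁ t₀, max 0 (H' t * L)) := by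
        apply ENNReal.ofReal_le_ofReal
        have hc : Continuous fun t => H' t * L := hH'c.mul continuous_const
        refine setIntegral_mono_on ?_ ?_ measurableSet_Ioo fun t _ => le_max_right _ _
        · exact (hc.continuousOn.integrableOn_Icc).mono_set Ioo_subset_Icc_self
        · exact ((continuous_const.max hc).continuousOn.integrableOn_Icc).mono_set
            Ioo_subset_Icc_self
    _ = ∫⁻ t in Ioo t₁ t₀, ENNReal.ofReal (max 0 (H' t * L)) := by
        have hc : Continuous fun t => max 0 (H' t * L) :=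
          continuous_const.max (hH'c.mul continuous_const)
        refine ofReal_integral_eq_lintegral_ofReal
          ((hc.continuousOn.integrableOn_Icc).mono_set Ioo_subset_Icc_self)
          (Filter.Eventually.of_forall fun t => le_max_left _ _)
    _ ≤ ∫⁻ t in Ioo t₁ t₀, Ψ t + Φ t := by
        refine setLIntegral_mono' measurableSet_Ioo fun t ht => ?_
        refine le_trans (le_of_eq ?_) (hpt t ht.2)
        rcases le_total 0 (H' t * L) with h | h
        · rw [max_eq_right h]
        · rw [max_eq_left h, ENNReal.ofReal_zero, ENNReal.ofReal_of_nonpos h]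
    _ ≤ ∫⁻ t, Ψ t + Φ t := setLIntegral_le_lintegral _ _

end Vale.Agent.P219.Two
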