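import Vale.Agent.P219.TPH.Sn

/-! # P219, dimension two: scalar functions and integration along a ray -/

open MeasureTheory Set Metric Filter Topology
open scoped ENNReal

namespace Vale.Agent.P219.Two

open Vale.Agent.P219.TPH

/-- The primitive of `sn k` which vanishes at `0`. -/
noncomputable def Cc (k r : ℝ) : ℝ := if k = 0 then r ^ 2 / 2 else (Real.cosh (k * r) - 1) / k ^ 2

theorem Cc_zero (k : ℝ) : Cc k 0 = 0 := by
  unfold Cc
  split_ifs <;> simp

theorem hasDerivAt_Cc (k r : ℝ) : HasDerivAt (Cc k) (sn k r) r := by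
  by_cases hk : k = 0
  · subst hk
    have h1 : Cc 0 = fun r => r ^ 2 / 2 := by
      funext x
      unfold Cc
      simp
    rw [h1, h1_sn_z]
    have h := (hasDerivAt_pow 2 r).div_const 2
    refine h.congr_deriv ?_
    simp
  · have h1 : Cc k = fun r => (Real.cosh (k * r) - 1) / k ^ 2 := by
      funext x
      unfold Cc
      simp [hk]
    rw [h1, h1_sn_nz hk]
    have h2 : HasDerivAt (fun r : ℝ => k * r) (k * 1) r := (hasDerivAt_id' r).const_mul k
    have h := (((Real.hasDerivAt_cosh (k * r)).comp r h2).sub_const 1).div_const (k ^ 2)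
    refine h.congr_deriv ?_
    field_simp

theorem continuous_sn (k : ℝ) : Continuous (sn k) := (contDiff_sn k).continuous

theorem continuous_Cc (k : ℝ) : Continuous (Cc k) :=
  continuous_iff_continuousAt.2 fun r => (hasDerivAt_Cc k r).continuousAt

theorem sn_nonneg {k r : ℝ} (hk : 0 ≤ k) (hr : 0 ≤ r) : 0 ≤ sn k r := by
  rcases hr.eq_or_lt with h | h
  · rw [← h, sn_zero]
  · exact (sn_pos hk h).le

theorem Cc_eq (k r : ℝ) : ∫ s in (0 : ℝ)..r, sn k s = Cc k r := by
  rw [intervalIntegral.integral_eq_sub_of_hasDerivAt (fun s _ => hasDerivAt_Cc k s)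
    ((continuous_sn k).intervalIntegrable _ _), Cc_zero, sub_zero]

theorem Cc_nonneg {k r : ℝ} (hk : 0 ≤ k) (hr : 0 ≤ r) : 0 ≤ Cc k r := by
  rw [← Cc_eq]
  exact intervalIntegral.integral_nonneg hr fun s hs => sn_nonneg hk hs.1

theorem Cc_le {k r : ℝ} (hk : 0 ≤ k) (hr : 0 ≤ r) : Cc k r ≤ r * sn k r := by
  rw [← Cc_eq]
  have h : ∫ s in (0 : ℝ)..r, sn k s ≤ ∫ _s in (0 : ℝ)..r, sn k r := by
    refine intervalIntegral.integral_mono_on hr ((continuous_sn k).intervalIntegrable _ _)
      intervalIntegrable_const fun s hs => ?_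
    exact (sn_strictMono hk).monotone hs.2
  refine h.trans (le_of_eq ?_)
  rw [intervalIntegral.integral_const, smul_eq_mul, sub_zero]

/-- `tanh (k r / 2) / k`. -/
noncomputable def phi (k r : ℝ) : ℝ := Cc k r / sn k r

theorem phi_nonneg {k r : ℝ} (hk : 0 ≤ k) (hr : 0 ≤ r) : 0 ≤ phi k r :=
  div_nonneg (Cc_nonneg hk hr) (sn_nonneg hk hr)

theorem phi_le {k r : ℝ} (hk : 0 ≤ k) (hr : 0 ≤ r) : phi k r ≤ r := by
  unfold phi
  exact div_le_of_le_mul₀ (sn_nonneg hk hr) hr (Cc_le hk hr)

theorem phi_mul_sn {k r : ℝ} (hk : 0 ≤ k) (hr : 0 ≤ r) : phi k r * sn k r = Cc k r := by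
  rcases hr.eq_or_lt with h | h
  · rw [← h, sn_zero, Cc_zero, mul_zero]
  · exact div_mul_cancel₀ _ (sn_pos hk h).ne'

theorem hasDerivAt_phi {k r : ℝ} (hk : 0 ≤ k) (hr : 0 < r) :
    HasDerivAt (phi k) (1 - phi k r * cs k r / sn k r) r := by
  have hs := (sn_pos hk hr).ne'
  have h := (hasDerivAt_Cc k r).div (hasDerivAt_sn k r) hs
  refine h.congr_deriv ?_
  unfold phi
  field_simp

theorem measurable_phi (k : ℝ) : Measurable (phi k) :=
  (continuous_Cc k).measurable.div (continuous_sn k).measurable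

/-- Integration by parts along a ray. -/
theorem ray_ibp {k : ℝ} (hk : 0 ≤ k) {H H' Dd D' : ℝ → ℝ} {R : ℝ} (hR : 0 ≤ R)
    (hH : ∀ r, HasDerivAt H (H' r) r) (hH'c : Continuous H') (hH0 : ∀ r, 0 ≤ H r)
    (hHR : H R = 0) (hD : ∀ r, HasDerivAt Dd (D' r) r) (hD0 : ∀ r, 0 < Dd r)
    (hratio : ∀ a b, 0 < a → a ≤ b → Dd a * a * sn k b ≤ Dd b * b * sn k a) :
    ∫ r in (0 : ℝ)..R, (H r * (Dd r * r) + H' r * phi k r * (Dd r * r)) ≤ 0 := by
  have hHc : Continuous H := continuous_iff_continuousAt.2 fun t => (hH t).continuousAt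
  have hDc : Continuous Dd := continuous_iff_continuousAt.2 fun t => (hD t).continuousAt
  set Θ : ℝ → ℝ := fun r => H r * phi k r * (Dd r * r) with hΘ
  have hΘ0 : Θ 0 = 0 := by simp [hΘ]
  have hΘR : Θ R = 0 := by simp [hΘ, hHR]
  -- derivative
  have hder : ∀ r, 0 < r → HasDerivAt Θ
      ((H' r * phi k r + H r * (1 - phi k r * cs k r / sn k r)) * (Dd r * r) +
        H r * phi k r * (D' r * r + Dd r * 1)) r := by
    intro r hr
    exact ((hH r).mul (hasDerivAt_phi hk hr)).mul ((hD r).mul (hasDerivAt_id' r))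
  have hcont : ContinuousOn Θ (Icc 0 R) := by
    intro r hr
    rcases hr.1.eq_or_lt with h | h
    · rw [← h]
      refine ContinuousWithinAt.mono (s := Icc 0 R) (t := Ici 0) ?_ (fun x hx => hx.1)
      have hb : Tendsto (fun r => |H r| * (Dd r * r) * r) (𝓝[Ici 0] 0) (𝓝 0) := by
        have hc : Continuous fun r => |H r| * (Dd r * r) * r := by fun_prop
        have := hc.tendsto 0
        simp only [mul_zero] at this
        exact this.mono_left nhdsWithin_le_nhds
      unfold ContinuousWithinAt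
      rw [hΘ0]
      refine squeeze_zero_norm' ?_ hb
      filter_upwards [self_mem_nhdsWithin] with s hs
      have hs0 : (0 : ℝ) ≤ s := hs
      rw [hΘ]
      simp only [Real.norm_eq_abs]
      rw [abs_mul, abs_mul, abs_of_nonneg (phi_nonneg hk hs0),
        abs_of_nonneg (mul_nonneg (hD0 s).le hs0)]
      have h1 := phi_le hk hs0
      have h2 : 0 ≤ |H s| * (Dd s * s) := mul_nonneg (abs_nonneg _) (mul_nonneg (hD0 s).le hs0)
      calc |H s| * phi k s * (Dd s * s) = |H s| * (Dd s * s) * phi k s := by ring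
        _ ≤ |H s| * (Dd s * s) * s := mul_le_mul_of_nonneg_left h1 h2
    · exact (hder r h).continuousAt.continuousWithinAt
  -- monotone ratio
  have hmono : MonotoneOn (fun r => Dd r * r / sn k r) (Ioi 0) := by
    intro a ha b hb hab
    have ha' : (0 : ℝ) < a := ha
    have hb' : (0 : ℝ) < b := hb
    simp only
    rw [div_le_div_iff₀ (sn_pos hk ha') (sn_pos hk hb')]
    exact hratio a b ha' hab
  have hder2 : ∀ r, 0 < r → 0 ≤ (D' r * r + Dd r * 1) * sn k r - Dd r * r * cs k r := by
    intro r hr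
    have hs := sn_pos hk hr
    have h1 : HasDerivAt (fun r => Dd r * r / sn k r)
        (((D' r * r + Dd r * 1) * sn k r - Dd r * r * cs k r) / sn k r ^ 2) r :=
      ((hD r).mul (hasDerivAt_id' r)).div (hasDerivAt_sn k r) hs.ne'
    have h2 : HasDerivWithinAt (fun r => Dd r * r / sn k r)
        (((D' r * r + Dd r * 1) * sn k r - Dd r * r * cs k r) / sn k r ^ 2) (Ioi 0) r :=
      h1.hasDerivWithinAt
    have h3 : AccPt r (𝓟 (Ioi (0 : ℝ))) :=
      uniqueDiffWithinAt_iff_accPt.1 (isOpen_Ioi.uniqueDiffWithinAt hr)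
    have h4 := h2.nonneg_of_monotoneOn h3 hmono
    have h5 : 0 < sn k r ^ 2 := pow_pos hs 2
    have h6 := mul_nonneg h4 h5.le
    rwa [div_mul_cancel₀ _ h5.ne'] at h6
  have hmeas : IntegrableOn (fun r => H r * (Dd r * r) + H' r * phi k r * (Dd r * r))
      (Icc 0 R) := by
    have hc1 : Continuous fun r => H r * (Dd r * r) := by fun_prop
    have hc2 : Continuous fun r => H' r * (Dd r * r) := by fun_prop
    have i2 : IntegrableOn (fun r => H' r * (Dd r * r)) (Icc 0 R) :=
      hc2.continuousOn.integrableOn_Icc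
    have i3 : IntegrableOn (fun r => phi k r * (H' r * (Dd r * r))) (Icc 0 R) := by
      refine Integrable.bdd_mul i2 (c := R) (measurable_phi k).aestronglyMeasurable ?_
      rw [ae_restrict_iff' measurableSet_Icc]
      refine Eventually.of_forall fun r hr => ?_
      rw [Real.norm_eq_abs, abs_of_nonneg (phi_nonneg hk hr.1)]
      exact (phi_le hk hr.1).trans hr.2
    refine (hc1.continuousOn.integrableOn_Icc).add (i3.congr ?_)
    refine Eventually.of_forall fun r => ?_
    simp only
    ring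
  have hmain := intervalIntegral.integral_le_sub_of_hasDeriv_right_of_le hR hcont
    (fun r hr => (hder r hr.1).hasDerivWithinAt) hmeas (fun r hr => by
      have hs := sn_pos hk hr.1
      have h1 := hder2 r hr.1
      have h2 : 0 ≤ H r * phi k r * (((D' r * r + Dd r * 1) * sn k r - Dd r * r * cs k r) /
          sn k r) := mul_nonneg (mul_nonneg (hH0 r) (phi_nonneg hk hr.1.le)) (div_nonneg h1 hs.le)
      have h3 : H r * phi k r * (((D' r * r + Dd r * 1) * sn k r - Dd r * r * cs k r) /
          sn k r) = H r * phi k r * (D' r * r + Dd r * 1) -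
            H r * (phi k r * cs k r / sn k r) * (Dd r * r) := by
        field_simp
      rw [h3] at h2
      linarith)
  rw [hΘ0, hΘR, sub_zero] at hmain
  exact hmain

end Vale.Agent.P219.Two
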