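import Vale.Agent.P219.Two.Jac
import Vale.Agent.P219.Two.Scal
import Vale.Agent.P219.Two.PolarB
import Vale.Agent.P219.TP.PairGe
import Vale.Agent.P219.TP.PerContract
import Vale.Agent.P219.TP.Ibp
import Vale.Agent.P219.TP.VolExp

/-! # P219, dimension two: divergence theorem for the field `tanh (k r / 2) / k ∇ r` -/

open MeasureTheory Set Metric Filter Topology
open scoped ENNReal ContDiff

namespace Vale.Agent.P219.Two

open Vale.Agent.P219.TP Vale.Agent.P219.TPH

theorem integral_vol_ex {n : ℕ} (G : Geo n) (x : E n) (F : E n → ℝ) :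
    ∫ y, F y ∂G.vol = ∫ v, |(G.T x v).det| * F (G.ex x v) := by
  rw [ibp_integral_vol]
  have hinj : InjOn (G.ex x) univ := fun v _ v' _ h => by
    rw [← G.lg_ex x v, ← G.lg_ex x v', h]
  have him : G.ex x '' univ = univ := by
    rw [image_univ]
    exact Set.range_eq_univ.2 fun y => ⟨G.lg x y, G.ex_lg x y⟩
  have hd : ∀ v ∈ (univ : Set (E n)), HasFDerivWithinAt (G.ex x) (fderiv ℝ (G.ex x) v) univ v :=
    fun v _ => ((G.ex_smooth_right x).differentiable (by simp) v).hasFDerivAt.hasFDerivWithinAt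
  have h := integral_image_eq_integral_abs_det_fderiv_smul volume MeasurableSet.univ hd hinj
    (fun y => G.w y * F y)
  rw [him, Measure.restrict_univ] at h
  rw [h]
  congr 1
  funext v
  rw [smul_eq_mul, ← mul_assoc, mul_comm |_| _, G.w_J]

variable {G : Geo 2} {k : ℝ} {h : E 2 → ℝ}

/-- The gradient of `h` at `x` paired with the field `- tanh (k r / 2) / k ∇ r`, `r` the distance
to `y`. -/
noncomputable def gg (G : Geo 2) (k : ℝ) (h : E 2 → ℝ) (y x : E 2) : ℝ :=
  phi k ‖G.lg x y‖ / ‖G.lg x y‖ * inner ℝ (G.D h x) (G.lg x y)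

theorem gg_ray (y : E 2) {u : E 2} (hu : ‖u‖ = 1) {r : ℝ} (hr : 0 < r) :
    gg G k h y (G.ex y (r • u)) =
      -(inner ℝ (G.D h (G.ex y (r • u))) (G.V r y u) * phi k r) := by
  have h1 : G.lg (G.ex y (r • u)) y = -(r • G.V r y u) := by
    rw [G.lg_back, G.V_eq]
  have h2 : ‖G.lg (G.ex y (r • u)) y‖ = r := by
    rw [h1, norm_neg, norm_smul, G.norm_V, hu, mul_one, Real.norm_of_nonneg hr.le]
  unfold gg
  rw [h2, h1, inner_neg_right, real_inner_smul_right]
  field_simp

theorem exists_radius (hc : HasCompactSupport h) (y : E 2) :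
    ∃ R, 0 ≤ R ∧ ∀ v : E 2, R ≤ ‖v‖ → G.ex y v ∉ tsupport h := by
  have h1 : IsCompact ((G.lg y) '' tsupport h) :=
    hc.isCompact.image ((PairGe.continuous_lg G).comp (continuous_const.prodMk continuous_id))
  obtain ⟨R, hR⟩ := h1.isBounded.exists_norm_le
  refine ⟨|R| + 1, by positivity, fun v hv hmem => ?_⟩
  have h2 := hR (G.lg y (G.ex y v)) ⟨_, hmem, rfl⟩
  rw [G.lg_ex] at h2
  have := le_abs_self R
  linarith

theorem upper_le (hk : 0 ≤ k) (hM : MonoSn G k) (hh : ContDiff ℝ 1 h) (hc : HasCompactSupport h)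
    (h0 : ∀ x, 0 ≤ h x) (y : E 2) : ∫ x, (h x - gg G k h y x) ∂G.vol ≤ 0 := by
  rw [integral_vol_ex G y]
  set F : E 2 → ℝ := fun v => |(G.T y v).det| * (h (G.ex y v) - gg G k h y (G.ex y v)) with hF
  by_cases hFi : Integrable F
  swap
  · rw [integral_undef hFi]
  rw [integral_polar volume F hFi]
  refine integral_nonpos fun u => ?_
  have hu : ‖(u : E 2)‖ = 1 := by simp
  have hdim : Module.finrank ℝ (E 2) - 1 = 1 := by simp
  obtain ⟨R, hR0, hR⟩ := exists_radius (G := G) hc y
  simp only [hdim, Pi.zero_apply, pow_one]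
  set H : ℝ → ℝ := fun r => h (G.ex y (r • (u : E 2))) with hH
  set H' : ℝ → ℝ := fun r => inner ℝ (G.D h (G.ex y (r • (u : E 2)))) (G.V r y u) with hH'
  set Dd : ℝ → ℝ := fun r => (G.T y (r • (u : E 2))).det with hDd
  have hzero : ∀ r, R ≤ r → H r = 0 ∧ H' r = 0 := by
    intro r hr
    have hn : R ≤ ‖r • (u : E 2)‖ := by
      rw [norm_smul, hu, mul_one, Real.norm_of_nonneg (hR0.trans hr)]; exact hr
    have h1 := hR _ hn
    refine ⟨image_eq_zero_of_notMem_tsupport (f := h) h1, ?_⟩
    simp only [hH']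
    rw [PairGe.D_eq_zero G h1, inner_zero_left]
  have hDpos : ∀ r, 0 < Dd r := fun r => det_T_pos G y _
  have hDsm : ContDiff ℝ ∞ Dd := volExp_contDiff_det.comp (G.T_smooth.comp
    (contDiff_const.prodMk (contDiff_id.smul contDiff_const)))
  have hDder : ∀ r, HasDerivAt Dd (deriv Dd r) r := fun r =>
    ((hDsm.differentiable (by simp)) r).hasDerivAt
  have hH'c : Continuous H' := by
    have c1 : Continuous fun r : ℝ => G.ex y (r • (u : E 2)) :=
      (PairGe.continuous_ex G).comp (continuous_const.prodMk (continuous_id.smul continuous_const))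
    have c2 : Continuous fun r : ℝ => G.V r y (u : E 2) :=
      (PairGe.continuous_V G).comp
        (continuous_id.prodMk (continuous_const (y := ((y, (u : E 2)) : E 2 × E 2))))
    exact ((PairGe.continuous_D G hh).comp c1).inner c2
  have hmain := ray_ibp hk (H := H) (H' := H') (Dd := Dd) (D' := deriv Dd) hR0
    (fun r => G.hasDerivAt_geod hh y u r) hH'c (fun r => h0 _) (hzero R le_rfl).1 hDder hDpos
    (fun a b ha hab => by
      have h1 := two_ray (n := 2) (by norm_num) hk hM y hu ha hab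
      simp only [show (2 : ℕ) - 1 = 1 from rfl, pow_one] at h1
      rw [abs_of_pos (det_T_pos G y _), abs_of_pos (det_T_pos G y _)] at h1
      exact h1)
  have e1 : ∫ r in Ioi (0 : ℝ), r * F (r • (u : E 2)) =
      ∫ r in Ioc (0 : ℝ) R, r * F (r • (u : E 2)) := by
    refine setIntegral_eq_of_subset_of_forall_sdiff_eq_zero measurableSet_Ioi
      Ioc_subset_Ioi_self ?_
    intro r hr
    have hr0 : (0 : ℝ) < r := hr.1
    have hrR : R < r := by
      by_contra hcon
      exact hr.2 ⟨hr0, not_lt.1 hcon⟩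
    have h1 := hzero r hrR.le
    have e2 : F (r • (u : E 2)) = |(G.T y (r • (u : E 2))).det| * (H r + H' r * phi k r) := by
      simp only [hF]
      rw [gg_ray y hu hr0]
      simp only [hH, hH']
      ring
    rw [e2, h1.1, h1.2]
    ring
  have heq : ∫ r in Ioi (0 : ℝ), r * F (r • (u : E 2)) =
      ∫ r in (0 : ℝ)..R, (H r * (Dd r * r) + H' r * phi k r * (Dd r * r)) := by
    rw [intervalIntegral.integral_of_le hR0, e1]
    refine setIntegral_congr_fun measurableSet_Ioc fun r hr => ?_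
    have hr0 : (0 : ℝ) < r := hr.1
    simp only [hF]
    rw [gg_ray y hu hr0, abs_of_pos (det_T_pos G y _)]
    simp only [hH, hH', hDd]
    ring
  rw [heq]
  exact hmain

end Vale.Agent.P219.Two
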